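import Vale.Agent.P358.Formula

namespace Vale.Agent.Results.P358.Additivity

open Vale.Agent.P358

/-- For all parameters the Holevo capacity of the generalized amplitude-damping channel is
additive, the classical capacity equals it, and it is given by a one-variable maximum. -/
theorem result : ∀ γ ∈ Set.Icc (0 : ℝ) 1, ∀ ν ∈ Set.Icc (0 : ℝ) 1,
    (∀ n : ℕ, BddAbove (holevoSet (tensorPow (gadc γ ν) n)) ∧
      holevo (tensorPow (gadc γ ν) n) = n * holevo (gadc γ ν)) ∧
    capacity (gadc γ ν) = holevo (gadc γ ν) ∧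
    IsGreatest ((fun q : ℝ => (Real.binEntropy ((1 - γ) * q + γ * ν) - Real.binEntropy
        ((1 + Real.sqrt (1 - 4 * γ * ((1 - γ) * (q - ν) ^ 2 + ν * (1 - ν)))) / 2)) / Real.log 2)
        '' Set.Icc 0 1) (capacity (gadc γ ν)) :=
  fun _ hγ _ hν => ⟨holevo_tensorPow hγ hν, capacity_eq_holevo hγ hν,
    (capacity_eq_holevo hγ hν).symm ▸ holevo_gadc_isGreatest hγ hν⟩

end Vale.Agent.Results.P358.Additivity
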